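import Vale.Agent.P113.Final

/-!
Problem P113, Q1: for every computable viscosity there are a point, an open set and a force compiler
such that the particle trajectory of the forced Navier-Stokes flow from rest enters the open set if
and only if the machine halts.
-/

open Set Vale.Agent.P113

namespace Vale.Agent.Results.P113.Main

theorem result (ν : ℝ) (hν : 0 < ν) (hc : IsComputableReal ν) :
    ∃ (a : Pt) (O : Set Pt) (compile : Machine × List ℕ → Nat.Partrec.Code)
      (f : Machine → List ℕ → Fin 3 → Field),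
      IsOpen O ∧ (∀ x i, x + Pi.single i 1 ∈ O ↔ x ∈ O) ∧ IsForceCompiler compile f ∧
      ∀ M w, ∃ (u : Fin 3 → Field) (p : Field), (∀ i, Smooth (u i)) ∧ Smooth p ∧
        (∀ T, 0 < T → IsClassicalSolution ν (f M w) T u p ∧
          ∀ v q, IsClassicalSolution ν (f M w) T v q →
            ∀ t ∈ Icc 0 T, (∀ i, v i t = u i t) ∧ q t = p t) ∧
        ∃ X : ℝ → Pt, IsTrajectory u a X ∧
          (∀ X', IsTrajectory u a X' → ∀ t, 0 ≤ t → X' t = X t) ∧
          ((∃ t, 0 ≤ t ∧ X t ∈ O) ↔ Halts M w) :=
  main ν hν hc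

end Vale.Agent.Results.P113.Main
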